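import Vale.Agent.P200.S.Defs

/-! P200, block D: statements of S/Canc.lean (cancellation, value at T = 1; only functions on
groups). -/

namespace Vale.Agent.P200.S

section
variable {B M : Type*} [AddCommGroup M] [Finite B] {π : M →+ (B → ℤ)} {t : M →+ ℤ}

theorem EvU.evT {F G : M → ℤ} (h : EvU π F G) : EvT π t F G := by
  sorry

theorem EvU.act {F G : M → ℤ} (h : EvU π F G) (p : AddMonoidAlgebra ℤ M) :
    EvU π (act p F) (act p G) := by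
  sorry

/-- the factors `1 - L_δ` with `t δ = 1` can be cancelled -/
theorem canc_prod {N : ℕ} {δ : Fin N → M} (hδ : ∀ i, 0 < t (δ i)) {F G : M → ℤ}
    (hF : ∃ τ0 : ℤ, ∀ m, t m < τ0 → F m = 0) (hG : ∃ τ0 : ℤ, ∀ m, t m < τ0 → G m = 0)
    (h : EvT π t (S.act (∏ i, (1 - gL (δ i))) F) (S.act (∏ i, (1 - gL (δ i))) G)) :
    EvT π t F G := by
  sorry

/-- value at `T = 1`, for the grading by `(B → ℤ) × ℤ` -/
theorem sum_T {N : ℕ} {δ : Fin N → (B → ℤ)} {e : ℕ}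
    {F A : (B → ℤ) × ℤ → ℤ} {τ0 τ1 : ℤ}
    (hF : ∀ n τ, τ < τ0 ∨ τ1 < τ → F (n, τ) = 0) (hA : ∀ n τ, τ < τ0 ∨ τ1 < τ → A (n, τ) = 0)
    (h : EvT (AddMonoidHom.fst (B → ℤ) ℤ) (AddMonoidHom.snd (B → ℤ) ℤ) F
      (S.act (∏ i, gPhi e ((δ i, 1) : (B → ℤ) × ℤ)) A)) :
    ∃ n0 : ℤ, ∀ n : B → ℤ, (∀ b, n0 ≤ n b) → ∑ τ ∈ Finset.Icc τ0 τ1, F (n, τ) =
      S.act (∏ i, gPhi e (δ i)) (fun n => ∑ τ ∈ Finset.Icc τ0 τ1, A (n, τ)) n := by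
  sorry

end

end Vale.Agent.P200.S
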