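import Mathlib

/-!
P200, block D: graded submodules of free modules over a polynomial ring, Hilbert functions of
subquotients.

`w : σ → M` are the weights of the variables, `sh : ι → M` the degrees of the basis vectors.
-/

namespace Vale.Agent.P200.S

open MvPolynomial Module

section graded
variable (k : Type*) [Field k] {σ ι M : Type*} [AddCommGroup M] (w : σ → M) (sh : ι → M)

/-- the vectors of degree `m` -/
def vec (m : M) : Submodule k (ι → MvPolynomial σ k) where
  carrier := {u | ∀ i, IsWeightedHomogeneous w (u i) (m - sh i)}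
  add_mem' ha hb i := (ha i).add (hb i)
  zero_mem' _ := isWeightedHomogeneous_zero k w _
  smul_mem' c _ ha i := (weightedHomogeneousSubmodule k w (m - sh i)).smul_mem c (ha i)

/-- the component of degree `m` -/
noncomputable def cmp (m : M) : (ι → MvPolynomial σ k) →ₗ[k] (ι → MvPolynomial σ k) :=
  LinearMap.pi fun i => (weightedHomogeneousComponent w (m - sh i)).comp (LinearMap.proj i)

variable {k}

/-- the graded submodules -/
def IsHom (X : Submodule (MvPolynomial σ k) (ι → MvPolynomial σ k)) : Prop :=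
  ∀ u ∈ X, ∀ m, cmp k w sh m u ∈ X

/-- the Hilbert function of a graded submodule -/
noncomputable def hf (X : Submodule (MvPolynomial σ k) (ι → MvPolynomial σ k)) (m : M) : ℤ :=
  finrank k (vec k w sh m ⊓ X.restrictScalars k : Submodule k (ι → MvPolynomial σ k))

/-- the homogeneous maps of degree `δ` -/
def IsHMap {ι' : Type*} (sh' : ι' → M) (δ : M)
    (f : (ι → MvPolynomial σ k) →ₗ[MvPolynomial σ k] (ι' → MvPolynomial σ k)) : Prop :=
  ∀ m, ∀ u ∈ vec k w sh m, f u ∈ vec k w sh' (m + δ)

/-- Hilbert functions of the graded subquotients `X / Y` of free modules with `I X ≤ Y` -/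
def IsH (I : Ideal (MvPolynomial σ k)) (F : M → ℤ) : Prop :=
  ∃ (s : ℕ) (sh : Fin s → M) (Y X : Submodule (MvPolynomial σ k) (Fin s → MvPolynomial σ k)),
    IsHom w sh Y ∧ IsHom w sh X ∧ Y ≤ X ∧ (∀ g ∈ I, ∀ x ∈ X, g • x ∈ Y) ∧
      ∀ m, F m = hf w sh X m - hf w sh Y m

/-- the group generated by the Hilbert functions of the graded modules killed by `I` -/
def Hil (I : Ideal (MvPolynomial σ k)) : AddSubgroup (M → ℤ) :=
  AddSubgroup.closure {F | IsH w I F}

end graded

section shifts
variable {M : Type*} [AddCommGroup M]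

/-- the shift of functions -/
def sft (δ : M) : Module.End ℤ (M → ℤ) where
  toFun F m := F (m - δ)
  map_add' _ _ := rfl
  map_smul' _ _ := rfl

theorem sft_apply (δ : M) (F : M → ℤ) (m : M) : sft δ F m = F (m - δ) := rfl

/-- the action of the group ring on functions; `single δ 1` acts as the shift `sft δ` -/
noncomputable def act : AddMonoidAlgebra ℤ M →ₐ[ℤ] Module.End ℤ (M → ℤ) :=
  AddMonoidAlgebra.lift ℤ (Module.End ℤ (M → ℤ)) M
    { toFun := fun δ => sft (Multiplicative.toAdd δ)
      map_one' := by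
        refine LinearMap.ext fun F => funext fun m => ?_
        show F (m - 0) = F m
        rw [sub_zero]
      map_mul' := by
        intro a b
        refine LinearMap.ext fun F => funext fun m => ?_
        show F (m - (Multiplicative.toAdd a + Multiplicative.toAdd b)) =
          F (m - Multiplicative.toAdd a - Multiplicative.toAdd b)
        rw [sub_sub] }

theorem act_single (δ : M) (a : ℤ) (F : M → ℤ) (m : M) :
    act (AddMonoidAlgebra.single δ a) F m = a * F (m - δ) := by
  rw [act, AddMonoidAlgebra.lift_single]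
  rfl

/-- the element `L_δ` of the group ring -/
noncomputable def gL (δ : M) : AddMonoidAlgebra ℤ M := AddMonoidAlgebra.single δ 1

theorem act_gL (δ : M) (F : M → ℤ) (m : M) : act (gL δ) F m = F (m - δ) := by
  rw [gL, act_single, one_mul]

/-- `1 + L_δ + … + L_δ^(e-1)` -/
noncomputable def gPhi (e : ℕ) (δ : M) : AddMonoidAlgebra ℤ M := ∑ i ∈ Finset.range e, gL δ ^ i

theorem gL_pow (δ : M) (i : ℕ) : gL δ ^ i = gL (i • δ) := by
  rw [gL, AddMonoidAlgebra.single_pow, one_pow]
  rfl

theorem one_sub_gL_mul_gPhi (e : ℕ) (δ : M) : (1 - gL δ) * gPhi e δ = 1 - gL (e • δ) := by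
  rw [gPhi, ← gL_pow]
  exact mul_neg_geom_sum _ _

end shifts

/-- equality for large `π m` -/
def EvU {B M : Type*} [AddCommGroup M] (π : M →+ (B → ℤ)) (F G : M → ℤ) : Prop :=
  ∃ n0 : ℤ, ∀ m, (∀ b, n0 ≤ π m b) → F m = G m

/-- equality for large `π m`, depending on the degree `t m` -/
def EvT {B M : Type*} [AddCommGroup M] (π : M →+ (B → ℤ)) (t : M →+ ℤ) (F G : M → ℤ) : Prop :=
  ∀ τ : ℤ, ∃ n0 : ℤ, ∀ m, t m = τ → (∀ b, n0 ≤ π m b) → F m = G m

open Classical in
/-- the degree of a monomial in the variables of the block `b` -/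
noncomputable def bdeg {σ B : Type*} [Fintype σ] (bl : σ → Option B) (μ : σ →₀ ℕ) (b : B) : ℕ :=
  ∑ v with bl v = some b, μ v

/-- the variables `v` with `bl v = some b` have `π`-degree `1` in the block `b`, all other degrees
are `0` -/
structure IsBl {σ B M : Type*} [AddCommGroup M] (w : σ → M) (π : M →+ (B → ℤ))
    (bl : σ → Option B) : Prop where
  one : ∀ v b, bl v = some b → π (w v) b = 1
  zero : ∀ v b, bl v ≠ some b → π (w v) b = 0

/-- the weights are positive -/
def IsPos {σ M : Type*} [AddCommGroup M] (w : σ → M) : Prop :=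
  ∃ deg : M →+ ℤ, ∀ v, 1 ≤ deg (w v)

/-- the `Δ` such that some vector `f` has the products `Δ` with the row `r` of `a` and `0` with the
rows before it -/
def mnr {P : Type*} [CommRing P] {N c : ℕ} (a : Fin c → Fin N → P) (r : Fin c) : Set P :=
  {Δ | ∃ f : Fin N → P, (∑ j, a r j * f j = Δ) ∧ ∀ l, l < r → ∑ j, a l j * f j = 0}

end Vale.Agent.P200.S
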