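import Vale.Agent.P200.S.Gr

/-! P200, block D: statements of S/Dev.lean (devissage). -/

namespace Vale.Agent.P200.S

open MvPolynomial Module

section
variable {k : Type*} [Field k] {σ ι ι' M : Type*} [AddCommGroup M] {w : σ → M}

/-- any finite index type may be used -/
theorem mem_hil {ι : Type*} [Fintype ι] (sh : ι → M)
    {X Y : Submodule (MvPolynomial σ k) (ι → MvPolynomial σ k)} (hY : IsHom w sh Y)
    (hX : IsHom w sh X) (hle : Y ≤ X) {I : Ideal (MvPolynomial σ k)}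
    (hI : ∀ g ∈ I, ∀ x ∈ X, g • x ∈ Y) :
    (fun m => hf w sh X m - hf w sh Y m) ∈ Hil w I := by
  sorry

theorem hil_mono {I J : Ideal (MvPolynomial σ k)} (h : I ≤ J) : Hil w J ≤ Hil w I := by
  sorry

theorem act_mem_hil {I : Ideal (MvPolynomial σ k)} {F : M → ℤ} (hF : F ∈ Hil w I)
    (p : AddMonoidAlgebra ℤ M) : act p F ∈ Hil w I := by
  sorry

/-- kernel and cokernel of a homogeneous polynomial `v` -/
theorem one_sub_mem_hil [Finite σ] (hw : IsPos w) {I : Ideal (MvPolynomial σ k)} {F : M → ℤ}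
    (hF : F ∈ Hil w I) {v : MvPolynomial σ k} {δ : M} (hv : IsWeightedHomogeneous w v δ) :
    act (1 - gL δ) F ∈ Hil w (I ⊔ Ideal.span {v}) := by
  sorry

theorem prod_mem_hil [Finite σ] (hw : IsPos w) {I : Ideal (MvPolynomial σ k)} {F : M → ℤ}
    (hF : F ∈ Hil w I) {N : ℕ} {v : Fin N → MvPolynomial σ k} {δ : Fin N → M}
    (hv : ∀ i, IsWeightedHomogeneous w (v i) (δ i)) :
    act (∏ i, (1 - gL (δ i))) F ∈ Hil w (I ⊔ Ideal.span (Set.range v)) := by
  sorry

/-- filtration by the powers of a nilpotent homogeneous polynomial -/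
theorem hil_le_of_pow [Finite σ] {I : Ideal (MvPolynomial σ k)} {v : MvPolynomial σ k} {δ : M}
    (hv : IsWeightedHomogeneous w v δ) {e : ℕ} (he : v ^ e ∈ I) :
    Hil w I ≤ Hil w (I ⊔ Ideal.span {v}) := by
  sorry

theorem hil_le_of_pow_range [Finite σ] {I : Ideal (MvPolynomial σ k)} {N : ℕ}
    {v : Fin N → MvPolynomial σ k} {δ : Fin N → M}
    (hv : ∀ i, IsWeightedHomogeneous w (v i) (δ i)) {e : ℕ} (he : ∀ i, v i ^ e ∈ I) :
    Hil w I ≤ Hil w (I ⊔ Ideal.span (Set.range v)) := by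
  sorry

end

end Vale.Agent.P200.S
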