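import Mathlib

/-!
The operators of the exterior algebra, on families indexed by the subsets of `Fin N`.

`op m true` is the multiplication by the basis vector `m`, `op m false` the contraction.
-/

namespace Vale.Agent.P200.S

section ops
variable {P : Type*} [CommRing P] {M : Type*} [AddCommGroup M] [Module P M] {N : ℕ}

/-- the sign of a bit -/
def sg (P : Type*) [CommRing P] (b : Bool) : P := if b then -1 else 1

/-- the sign in front of the position `m` -/
def sgn (P : Type*) [CommRing P] {N : ℕ} (m : Fin N) (S : Fin N → Bool) : P :=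
  ∏ i ∈ Finset.Iio m, sg P (S i)

theorem sg_mul_self (b : Bool) : sg P b * sg P b = 1 := by
  cases b <;> simp [sg]

theorem sg_not (b : Bool) : sg P (!b) = - sg P b := by
  cases b <;> simp [sg]

theorem sgn_mul_self (m : Fin N) (S : Fin N → Bool) : sgn P m S * sgn P m S = 1 := by
  rw [sgn, ← Finset.prod_mul_distrib]
  exact Finset.prod_eq_one fun i _ => sg_mul_self _

theorem sgn_update_of_le (m l : Fin N) (h : m ≤ l) (S : Fin N → Bool) (b : Bool) :
    sgn P m (Function.update S l b) = sgn P m S := by
  apply Finset.prod_congr rfl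
  intro i hi
  rw [Finset.mem_Iio] at hi
  rw [Function.update_of_ne (lt_of_lt_of_le hi h).ne]

theorem sgn_update_of_lt (m l : Fin N) (h : l < m) (S : Fin N → Bool) :
    sgn P m (Function.update S l (!(S l))) = - sgn P m S := by
  classical
  have hl : l ∈ Finset.Iio m := Finset.mem_Iio.2 h
  rw [sgn, sgn, ← Finset.mul_prod_erase _ _ hl, ← Finset.mul_prod_erase _ _ hl,
    Function.update_self, sg_not, neg_mul]
  congr 2
  apply Finset.prod_congr rfl
  intro i hi
  rw [Function.update_of_ne (Finset.ne_of_mem_erase hi)]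

/-- `op m true`: multiplication by the basis vector; `op m false`: contraction -/
def op (P : Type*) [CommRing P] {M : Type*} [AddCommGroup M] [Module P M] {N : ℕ}
    (m : Fin N) (b : Bool) : ((Fin N → Bool) → M) →ₗ[P] ((Fin N → Bool) → M) where
  toFun f S := if S m = b then sgn P m S • f (Function.update S m (!b)) else 0
  map_add' f g := by
    funext S
    by_cases h : S m = b <;> simp [h]
  map_smul' c f := by
    funext S
    by_cases h : S m = b <;> simp [h, smul_smul, mul_comm]

theorem op_apply (m : Fin N) (b : Bool) (f : (Fin N → Bool) → M) (S : Fin N → Bool) :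
    op P m b f S = if S m = b then sgn P m S • f (Function.update S m (!b)) else 0 := rfl

theorem op_op_self (m : Fin N) (b : Bool) (f : (Fin N → Bool) → M) : op P m b (op P m b f) = 0 := by
  funext S
  rw [op_apply, op_apply, Function.update_self]
  by_cases h : S m = b
  · rw [if_pos h, if_neg (by cases b <;> simp), smul_zero]
    rfl
  · rw [if_neg h]
    rfl

theorem op_op_not (m : Fin N) (b : Bool) (f : (Fin N → Bool) → M) :
    op P m b (op P m (!b) f) = fun S => if S m = b then f S else 0 := by
  funext S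
  rw [op_apply, op_apply, Function.update_self]
  by_cases h : S m = b
  · rw [if_pos h, if_pos h, if_pos rfl, sgn_update_of_le m m le_rfl, smul_smul, sgn_mul_self,
      one_smul, Function.update_idem, Bool.not_not, ← h, Function.update_eq_self]
  · rw [if_neg h, if_neg h]

theorem op_anti_same (m : Fin N) (b : Bool) (f : (Fin N → Bool) → M) :
    op P m b (op P m (!b) f) + op P m (!b) (op P m b f) = f := by
  have h1 := op_op_not (P := P) m b f
  have h2 := op_op_not (P := P) m (!b) f
  rw [Bool.not_not] at h2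
  rw [h1, h2]
  funext S
  rw [Pi.add_apply]
  by_cases h : S m = b
  · rw [if_pos h, if_neg (by rw [h]; cases b <;> simp), add_zero]
  · rw [if_neg h, if_pos (by revert h; cases b <;> cases S m <;> simp), zero_add]

theorem op_anti_lt (m l : Fin N) (hml : m < l) (b b' : Bool) (f : (Fin N → Bool) → M) :
    op P m b (op P l b' f) + op P l b' (op P m b f) = 0 := by
  funext S
  rw [Pi.add_apply, op_apply, op_apply, op_apply, op_apply, Function.update_of_ne hml.ne',
    Function.update_of_ne hml.ne]
  by_cases h : S m = b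
  · by_cases h' : S l = b'
    · rw [if_pos h, if_pos h', if_pos h', if_pos h, ← h, sgn_update_of_lt l m hml,
        sgn_update_of_le m l hml.le, Function.update_comm hml.ne, smul_smul, smul_smul, mul_neg,
        neg_smul, mul_comm, neg_add_cancel]
      rfl
    · rw [if_neg h', if_neg h', smul_zero, ite_self, add_zero]
      rfl
  · rw [if_neg h, if_neg h, smul_zero, ite_self, add_zero]
    rfl

theorem op_anti (m l : Fin N) (b b' : Bool) (h : m ≠ l ∨ b = b') (f : (Fin N → Bool) → M) :
    op P m b (op P l b' f) + op P l b' (op P m b f) = 0 := by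
  rcases lt_trichotomy m l with h1 | h1 | h1
  · exact op_anti_lt m l h1 b b' f
  · subst h1
    rcases h with h | h
    · exact absurd rfl h
    · subst h
      rw [op_op_self, add_zero]
  · rw [add_comm]
    exact op_anti_lt l m h1 b' b f

/-- the operator `∑ a_m op m b` -/
def Op (b : Bool) (a : Fin N → P) : ((Fin N → Bool) → M) →ₗ[P] ((Fin N → Bool) → M) :=
  ∑ m, a m • op P m b

theorem Op_apply (b : Bool) (a : Fin N → P) (f : (Fin N → Bool) → M) :
    Op b a f = ∑ m, a m • op P m b f := by
  rw [Op, LinearMap.sum_apply]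
  rfl

theorem Op_Op (b b' : Bool) (a a' : Fin N → P) (f : (Fin N → Bool) → M) :
    Op b a (Op b' a' f) = ∑ m, ∑ l, (a m * a' l) • op P m b (op P l b' f) := by
  rw [Op_apply]
  apply Finset.sum_congr rfl
  intro m _
  rw [Op_apply, map_sum, Finset.smul_sum]
  apply Finset.sum_congr rfl
  intro l _
  rw [map_smul, smul_smul]

theorem Op_anti (b : Bool) (a a' : Fin N → P) (f : (Fin N → Bool) → M) :
    Op b a (Op b a' f) + Op b a' (Op b a f) = 0 := by
  rw [Op_Op, Op_Op]
  nth_rw 2 [Finset.sum_comm]
  rw [← Finset.sum_add_distrib]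
  apply Finset.sum_eq_zero
  intro m _
  rw [← Finset.sum_add_distrib]
  apply Finset.sum_eq_zero
  intro l _
  rw [mul_comm (a' l), ← smul_add, op_anti m l b b (Or.inr rfl), smul_zero]

theorem Op_self (b : Bool) (a : Fin N → P) (f : (Fin N → Bool) → M) :
    Op b a (Op b a f) = 0 := by
  classical
  rw [Op_Op, ← Finset.sum_product']
  have h := Finset.sum_involution (s := (Finset.univ : Finset (Fin N × Fin N)))
    (f := fun p : Fin N × Fin N => (a p.1 * a p.2) • op P p.1 b (op P p.2 b f))
    (fun p _ => p.swap) ?_ ?_ (fun p _ => Finset.mem_univ _) (fun p _ => Prod.swap_swap p)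
  · exact h
  · intro p _
    simp only [Prod.fst_swap, Prod.snd_swap]
    rw [mul_comm (a p.2), ← smul_add, op_anti p.1 p.2 b b (Or.inr rfl), smul_zero]
  · intro p _ hp h'
    apply hp
    have : p.1 = p.2 := by
      have := congrArg Prod.fst h'
      exact this.symm
    rw [this, op_op_self, smul_zero]

theorem Op_contr (b : Bool) (a a' : Fin N → P) (f : (Fin N → Bool) → M) :
    Op b a (Op (!b) a' f) + Op (!b) a' (Op b a f) = (∑ m, a m * a' m) • f := by
  rw [Op_Op, Op_Op]
  nth_rw 2 [Finset.sum_comm]
  rw [← Finset.sum_add_distrib, Finset.sum_smul]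
  apply Finset.sum_congr rfl
  intro m _
  rw [← Finset.sum_add_distrib, Finset.sum_eq_single m]
  · rw [mul_comm (a' m), ← smul_add, op_anti_same]
  · intro l _ hl
    rw [mul_comm (a' l), ← smul_add, op_anti m l b (!b) (Or.inl hl.symm), smul_zero]
  · intro h
    exact absurd (Finset.mem_univ _) h

/-- the families with values in a submodule -/
def pw (N : ℕ) (X : Submodule P M) : Submodule P ((Fin N → Bool) → M) where
  carrier := {f | ∀ S, f S ∈ X}
  add_mem' ha hb S := X.add_mem (ha S) (hb S)
  zero_mem' _ := X.zero_mem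
  smul_mem' c _ ha S := X.smul_mem c (ha S)

theorem mem_pw {X : Submodule P M} {f : (Fin N → Bool) → M} : f ∈ pw N X ↔ ∀ S, f S ∈ X :=
  Iff.rfl

theorem op_mem {X : Submodule P M} {f : (Fin N → Bool) → M} (hf : f ∈ pw N X) (m : Fin N)
    (b : Bool) : op P m b f ∈ pw N X := by
  intro S
  rw [op_apply]
  split_ifs
  · exact X.smul_mem _ (hf _)
  · exact X.zero_mem

theorem Op_mem {X : Submodule P M} {f : (Fin N → Bool) → M} (hf : f ∈ pw N X) (b : Bool)
    (a : Fin N → P) : Op b a f ∈ pw N X := by
  rw [Op_apply]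
  exact Submodule.sum_mem _ fun m _ => Submodule.smul_mem _ _ (op_mem hf m b)

/-- the submodule `Y^{2^N} + ∑_{i < j} η_i X^{2^N}` -/
def Nj {r : ℕ} (h : Fin r → Fin N → P) (X Y : Submodule P M) (j : ℕ) :
    Submodule P ((Fin N → Bool) → M) :=
  pw N Y ⊔ ⨆ (i : Fin r) (_ : (i : ℕ) < j), (pw N X).map (Op true (h i))

theorem Nj_zero {r : ℕ} (h : Fin r → Fin N → P) (X Y : Submodule P M) : Nj h X Y 0 = pw N Y := by
  rw [Nj]
  apply le_antisymm
  · refine sup_le le_rfl (iSup_le fun i => iSup_le fun hi => ?_)
    exact absurd hi (Nat.not_lt_zero _)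
  · exact le_sup_left

theorem Nj_succ {r : ℕ} (h : Fin r → Fin N → P) (X Y : Submodule P M) (j : Fin r) :
    Nj h X Y (j + 1) = Nj h X Y j ⊔ (pw N X).map (Op true (h j)) := by
  rw [Nj, Nj]
  apply le_antisymm
  · refine sup_le (le_sup_of_le_left le_sup_left) (iSup_le fun i => iSup_le fun hi => ?_)
    rcases Nat.lt_succ_iff_lt_or_eq.1 hi with h1 | h1
    · exact le_sup_of_le_left (le_sup_of_le_right (le_iSup₂_of_le i h1 le_rfl))
    · have : i = j := Fin.ext h1
      subst this
      exact le_sup_right
  · refine sup_le (sup_le le_sup_left (iSup_le fun i => iSup_le fun hi => ?_)) ?_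
    · exact le_sup_of_le_right (le_iSup₂_of_le i (Nat.lt_succ_of_lt hi) le_rfl)
    · exact le_sup_of_le_right (le_iSup₂_of_le j (Nat.lt_succ_self _) le_rfl)

theorem Nj_le {r : ℕ} (h : Fin r → Fin N → P) {X Y : Submodule P M} (hYX : Y ≤ X) (j : ℕ) :
    Nj h X Y j ≤ pw N X := by
  refine sup_le (fun f hf S => hYX (hf S)) (iSup_le fun i => iSup_le fun _ => ?_)
  rintro _ ⟨f, hf, rfl⟩
  exact Op_mem hf true _

/-- an operator which anticommutes with the `η_i` modulo `Y` preserves `N_j` -/
theorem Nj_stable {r : ℕ} (h : Fin r → Fin N → P) {X Y : Submodule P M} (j : ℕ)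
    (D : ((Fin N → Bool) → M) →ₗ[P] ((Fin N → Bool) → M)) (hDX : ∀ f ∈ pw N X, D f ∈ pw N X)
    (hDY : ∀ f ∈ pw N Y, D f ∈ pw N Y)
    (hD : ∀ i : Fin r, (i : ℕ) < j → ∀ f ∈ pw N X,
      D (Op true (h i) f) + Op true (h i) (D f) ∈ pw N Y) :
    ∀ f ∈ Nj h X Y j, D f ∈ Nj h X Y j := by
  intro f hf
  have hle : Nj h X Y j ≤ (Nj h X Y j).comap D := by
    refine sup_le (fun f hf => Submodule.mem_sup_left (hDY f hf))
      (iSup_le fun i => iSup_le fun hi => ?_)
    rintro _ ⟨g, hg, rfl⟩
    rw [Submodule.mem_comap]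
    have h1 : D (Op true (h i) g) = (D (Op true (h i) g) + Op true (h i) (D g)) -
        Op true (h i) (D g) := (add_sub_cancel_right _ _).symm
    rw [h1]
    refine Submodule.sub_mem _ (Submodule.mem_sup_left (hD i hi g hg)) ?_
    exact Submodule.mem_sup_right (Submodule.mem_iSup_of_mem i (Submodule.mem_iSup_of_mem hi
      ⟨D g, hDX g hg, rfl⟩))
  exact hle hf

/-- **The minors of the first `j + 1` rows kill the kernel of `η_j` on `𝒦 / N_j`.** -/
theorem minor_smul_mem {r : ℕ} (h : Fin r → Fin N → P) {X Y : Submodule P M} (j : Fin r)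
    (g : Fin (j + 1) → Fin N) {x : (Fin N → Bool) → M} (hx : x ∈ pw N X)
    (hjx : Op true (h j) x ∈ Nj h X Y j) :
    (Matrix.of fun (a b : Fin (j + 1)) => h (Fin.castLE j.2 a) (g b)).det • x ∈
      Nj h X Y (j + 1) := by
  classical
  set A : Matrix (Fin (j + 1)) (Fin (j + 1)) P :=
    Matrix.of fun (a b : Fin (j + 1)) => h (Fin.castLE j.2 a) (g b) with hA
  let c : Fin N → P := fun m => ∑ b, if g b = m then A.adjugate b (Fin.last j) else 0
  have hc : ∀ i : Fin (j + 1), ∑ m, c m * h (Fin.castLE j.2 i) m =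
      if i = Fin.last j then A.det else 0 := by
    intro i
    have h1 : ∑ m, c m * h (Fin.castLE j.2 i) m = ∑ b, A i b * A.adjugate b (Fin.last j) := by
      simp only [c, Finset.sum_mul]
      rw [Finset.sum_comm]
      apply Finset.sum_congr rfl
      intro b _
      rw [Finset.sum_eq_single (g b)]
      · rw [if_pos rfl, mul_comm]
        rfl
      · intro m _ hm
        rw [if_neg hm.symm, zero_mul]
      · intro h'
        exact absurd (Finset.mem_univ _) h'
    rw [h1, ← Matrix.mul_apply, Matrix.mul_adjugate, Matrix.smul_apply, Matrix.one_apply,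
      smul_eq_mul, mul_ite, mul_one, mul_zero]
  have hlast : Fin.castLE j.2 (Fin.last j) = j := Fin.ext rfl
  -- the operator `I(c)`
  have hI : ∀ f : (Fin N → Bool) → M, Op false c (Op true (h j) f) +
      Op true (h j) (Op false c f) = A.det • f := by
    intro f
    have h1 := Op_contr false c (h j) f
    have h2 := hc (Fin.last j)
    rw [hlast, if_pos rfl] at h2
    rw [h2] at h1
    exact h1
  have hI0 : ∀ i : Fin r, (i : ℕ) < j → ∀ f : (Fin N → Bool) → M,
      Op false c (Op true (h i) f) + Op true (h i) (Op false c f) = 0 := by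
    intro i hi f
    have h1 := Op_contr false c (h i) f
    have h2 := hc ⟨i, Nat.lt_succ_of_lt hi⟩
    have h3 : Fin.castLE j.2 ⟨i, Nat.lt_succ_of_lt hi⟩ = i := Fin.ext rfl
    rw [h3, if_neg (by
      intro h'
      have := congrArg Fin.val h'
      simp only [Fin.val_last] at this
      omega)] at h2
    rw [h2, zero_smul] at h1
    exact h1
  have hst : Op false c (Op true (h j) x) ∈ Nj h X Y j :=
    Nj_stable h (j : ℕ) (Op false c) (fun f hf => Op_mem hf _ _) (fun f hf => Op_mem hf _ _)
      (fun i hi f _ => by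
        rw [hI0 i hi f]
        exact Submodule.zero_mem _) _ hjx
  rw [← hI x, Nj_succ]
  exact Submodule.add_mem_sup hst ⟨_, Op_mem hx false c, rfl⟩

end ops

end Vale.Agent.P200.S
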