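import Vale.Agent.P200.S.Gr

/-! P200, block D: statements of S/Gen.lean (generators in bounded degrees). -/

namespace Vale.Agent.P200.S

open MvPolynomial Module

section
variable {k : Type*} [Field k] {σ ι B M : Type*} [AddCommGroup M] [Fintype σ] [Finite ι]
  [Finite B] {w : σ → M} {sh : ι → M} {π : M →+ (B → ℤ)} {bl : σ → Option B}

/-- The elements of degree `m`, `π m` large, are combinations of products `μ y` with `μ` a monomial
of multidegree `π m - n1` in the variables of the blocks and `y ∈ X` of multidegree `n1`. -/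
theorem gen (hbl : IsBl w π bl) {X : Submodule (MvPolynomial σ k) (ι → MvPolynomial σ k)}
    (hX : IsHom w sh X) : ∃ n1 : ℤ, ∀ n2, n1 ≤ n2 → ∀ m, (∀ b, n2 ≤ π m b) → ∀ x ∈ X,
      x ∈ vec k w sh m → x ∈ Submodule.span k {z | ∃ (μ : σ →₀ ℕ) (m' : M) (y : ι → MvPolynomial σ k),
        y ∈ X ∧ y ∈ vec k w sh m' ∧ (∀ b, π m' b = n2) ∧ Finsupp.weight w μ + m' = m ∧
        (∀ v ∈ μ.support, bl v ≠ none) ∧ (∀ b, (bdeg bl μ b : ℤ) = π m b - n2) ∧
        z = monomial μ (1 : k) • y} := by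
  sorry

/-- If the monomials of large multidegree map `X` to `Y` then `X` and `Y` agree in large
multidegrees. -/
theorem vanish (hbl : IsBl w π bl) {X Y : Submodule (MvPolynomial σ k) (ι → MvPolynomial σ k)}
    (hX : IsHom w sh X) {q : ℕ}
    (hq : ∀ μ : σ →₀ ℕ, (∀ b, q ≤ bdeg bl μ b) → ∀ x ∈ X, monomial μ (1 : k) • x ∈ Y) :
    ∃ n0 : ℤ, ∀ m, (∀ b, n0 ≤ π m b) → ∀ x ∈ X, x ∈ vec k w sh m → x ∈ Y := by
  sorry

end

section
variable {k : Type*} [Field k] {σ M : Type*} [AddCommGroup M] [Finite σ] {w : σ → M}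

/-- the degrees with respect to nonnegative weights are bounded below -/
theorem hil_bdd_below (t : M →+ ℤ) (ht : ∀ v, 0 ≤ t (w v)) {I : Ideal (MvPolynomial σ k)}
    {F : M → ℤ} (hF : F ∈ Hil w I) : ∃ τ0 : ℤ, ∀ m, t m < τ0 → F m = 0 := by
  sorry

/-- if all variables of nonzero degree are killed then the degrees are bounded -/
theorem hil_bdd_above (t : M →+ ℤ) {I : Ideal (MvPolynomial σ k)}
    (hI : ∀ v, t (w v) ≠ 0 → (X v : MvPolynomial σ k) ∈ I)
    {F : M → ℤ} (hF : F ∈ Hil w I) : ∃ τ1 : ℤ, ∀ m, τ1 < t m → F m = 0 := by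
  sorry

end

end Vale.Agent.P200.S
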