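import Vale.Agent.P200.S.Defs

/-! P200, block D: graded submodules, basic lemmas: STATEMENTS ONLY (helper880 proves them in S/Gr.lean). -/

namespace Vale.Agent.P200.S

open MvPolynomial Module

section
variable {k : Type*} [Field k] {σ ι ι' M : Type*} [AddCommGroup M] {w : σ → M} {sh : ι → M}
  {sh' : ι' → M}

theorem mem_vec {m : M} {u : ι → MvPolynomial σ k} :
    u ∈ vec k w sh m ↔ ∀ i, IsWeightedHomogeneous w (u i) (m - sh i) := Iff.rfl

theorem cmp_apply (m : M) (u : ι → MvPolynomial σ k) (i : ι) :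
    cmp k w sh m u i = weightedHomogeneousComponent w (m - sh i) (u i) := rfl

theorem cmp_mem (m : M) (u : ι → MvPolynomial σ k) : cmp k w sh m u ∈ vec k w sh m := by
  sorry

theorem cmp_of_mem {m : M} {u : ι → MvPolynomial σ k} (hu : u ∈ vec k w sh m) :
    cmp k w sh m u = u := by
  sorry

theorem cmp_of_mem_ne {m m' : M} {u : ι → MvPolynomial σ k} (hu : u ∈ vec k w sh m)
    (h : m' ≠ m) : cmp k w sh m' u = 0 := by
  sorry

/-- every vector is the sum of its components -/
theorem exists_sum_cmp [Finite ι] (w : σ → M) (sh : ι → M) (u : ι → MvPolynomial σ k) :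
    ∃ S : Finset M, u = ∑ m ∈ S, cmp k w sh m u := by
  sorry

theorem smul_mem_vec {v : MvPolynomial σ k} {δ m : M} {u : ι → MvPolynomial σ k}
    (hv : IsWeightedHomogeneous w v δ) (hu : u ∈ vec k w sh m) : v • u ∈ vec k w sh (m + δ) := by
  sorry

theorem cmp_smul {v : MvPolynomial σ k} {δ : M} (hv : IsWeightedHomogeneous w v δ) (m : M)
    (u : ι → MvPolynomial σ k) : cmp k w sh (m + δ) (v • u) = v • cmp k w sh m u := by
  sorry

theorem finite_vec [Finite σ] [Finite ι] (hw : IsPos w) (sh : ι → M) (m : M) :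
    Module.Finite k (vec k w sh m) := by
  sorry

theorem IsHMap.cmp [Finite ι] {δ : M}
    {f : (ι → MvPolynomial σ k) →ₗ[MvPolynomial σ k] (ι' → MvPolynomial σ k)}
    (hf : IsHMap w sh sh' δ f) (m : M) (u : ι → MvPolynomial σ k) :
    f (cmp k w sh m u) = S.cmp k w sh' (m + δ) (f u) := by
  sorry

theorem IsHom.top : IsHom w sh (⊤ : Submodule (MvPolynomial σ k) (ι → MvPolynomial σ k)) := by
  sorry

theorem IsHom.bot : IsHom w sh (⊥ : Submodule (MvPolynomial σ k) (ι → MvPolynomial σ k)) := by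
  sorry

theorem IsHom.sup {X Y : Submodule (MvPolynomial σ k) (ι → MvPolynomial σ k)}
    (hX : IsHom w sh X) (hY : IsHom w sh Y) : IsHom w sh (X ⊔ Y) := by
  sorry

theorem IsHom.inf {X Y : Submodule (MvPolynomial σ k) (ι → MvPolynomial σ k)}
    (hX : IsHom w sh X) (hY : IsHom w sh Y) : IsHom w sh (X ⊓ Y) := by
  sorry

theorem IsHom.iSup {J : Type*} {X : J → Submodule (MvPolynomial σ k) (ι → MvPolynomial σ k)}
    (hX : ∀ j, IsHom w sh (X j)) : IsHom w sh (⨆ j, X j) := by
  sorry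

theorem IsHom.map [Finite ι] {δ : M}
    {f : (ι → MvPolynomial σ k) →ₗ[MvPolynomial σ k] (ι' → MvPolynomial σ k)}
    (hf : IsHMap w sh sh' δ f) {X : Submodule (MvPolynomial σ k) (ι → MvPolynomial σ k)}
    (hX : IsHom w sh X) : IsHom w sh' (X.map f) := by
  sorry

theorem IsHom.comap [Finite ι] {δ : M}
    {f : (ι → MvPolynomial σ k) →ₗ[MvPolynomial σ k] (ι' → MvPolynomial σ k)}
    (hf : IsHMap w sh sh' δ f) {Y : Submodule (MvPolynomial σ k) (ι' → MvPolynomial σ k)}
    (hY : IsHom w sh' Y) : IsHom w sh (Y.comap f) := by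
  sorry

/-- multiplication by a homogeneous polynomial -/
theorem isHMap_smul {v : MvPolynomial σ k} {δ : M} (hv : IsWeightedHomogeneous w v δ)
    (sh : ι → M) :
    IsHMap w sh sh δ (LinearMap.lsmul (MvPolynomial σ k) (ι → MvPolynomial σ k) v) := by
  sorry

theorem hf_nonneg (X : Submodule (MvPolynomial σ k) (ι → MvPolynomial σ k)) (m : M) :
    0 ≤ hf w sh X m := by
  sorry

/-- only the elements of degree `m` matter -/
theorem hf_congr {X Y : Submodule (MvPolynomial σ k) (ι → MvPolynomial σ k)} {m : M}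
    (h : ∀ u ∈ vec k w sh m, u ∈ X ↔ u ∈ Y) : hf w sh X m = hf w sh Y m := by
  sorry

/-- **Rank and nullity.** -/
theorem hf_map [Finite σ] [Finite ι] [Finite ι'] (hw : IsPos w) {δ : M}
    {f : (ι → MvPolynomial σ k) →ₗ[MvPolynomial σ k] (ι' → MvPolynomial σ k)}
    (hf : IsHMap w sh sh' δ f) {X : Submodule (MvPolynomial σ k) (ι → MvPolynomial σ k)}
    (hX : IsHom w sh X) {Y : Submodule (MvPolynomial σ k) (ι' → MvPolynomial σ k)}
    (hY : IsHom w sh' Y) (m : M) :
    S.hf w sh X m - S.hf w sh (X ⊓ Y.comap f) m =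
      S.hf w sh' (X.map f ⊔ Y) (m + δ) - S.hf w sh' Y (m + δ) := by
  sorry

end

end Vale.Agent.P200.S
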