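import Mathlib

/-!
Linearly independent rows at every point, and the ideal of maximal minors.
-/

namespace Vale.Agent.P200.S

universe u

/-- linearly independent rows: some maximal minor does not vanish -/
theorem exists_minor_ne_zero {Ω : Type*} [Field Ω] {C J : Type*} [Fintype C] [DecidableEq C]
    [Fintype J] (A : C → J → Ω) (hA : LinearIndependent Ω A) :
    ∃ g : C → J, Function.Injective g ∧ (Matrix.of fun a b => A a (g b)).det ≠ 0 := by
  classical
  -- the columns span
  have hr : (Matrix.of A).rank = Fintype.card C := by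
    have := LinearIndependent.rank_matrix (M := Matrix.of A) hA
    exact this
  have hcol : Module.finrank Ω (Submodule.span Ω (Set.range fun (j : J) (c : C) => A c j)) =
      Fintype.card C := by
    rw [← hr, Matrix.rank_eq_finrank_span_cols]
    rfl
  have htop : Submodule.span Ω (Set.range fun (j : J) (c : C) => A c j) = ⊤ := by
    apply Submodule.eq_top_of_finrank_eq
    rw [hcol, Module.finrank_fintype_fun_eq_card]
  obtain ⟨b, hb1, hb2, hb3⟩ := exists_linearIndependent Ω (Set.range fun (j : J) (c : C) => A c j)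
  rw [htop] at hb2
  let B : Module.Basis b Ω (C → Ω) := Module.Basis.mk hb3 (by rw [Subtype.range_coe]; exact hb2.ge)
  have : Fintype b := Set.Finite.fintype (Set.Finite.subset (Set.finite_range _) hb1)
  have hcard : Fintype.card b = Fintype.card C := by
    rw [← Module.finrank_eq_card_basis B, Module.finrank_fintype_fun_eq_card]
  obtain ⟨eqv⟩ := Fintype.card_eq.1 hcard
  have hg : ∀ c : C, ∃ j : J, (fun c' => A c' j) = (eqv.symm c : C → Ω) := by
    intro c
    exact hb1 (eqv.symm c).2
  choose g hg using hg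
  refine ⟨g, ?_, ?_⟩
  · intro c c' h
    have h1 := hg c
    rw [h, hg c'] at h1
    exact (eqv.symm.injective (Subtype.ext h1)).symm
  · have hli : LinearIndependent Ω fun c : C => (fun c' => A c' (g c)) := by
      have h1 : (fun c : C => (fun c' => A c' (g c))) = (fun x : b => (x : C → Ω)) ∘ eqv.symm := by
        funext c
        exact hg c
      rw [h1]
      exact hb3.comp _ eqv.symm.injective
    have h2 : LinearIndependent Ω (Matrix.of fun a b => A a (g b)).transpose.row := hli
    have h3 := Matrix.linearIndependent_rows_iff_isUnit.1 h2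
    rw [Matrix.isUnit_transpose, Matrix.isUnit_iff_isUnit_det] at h3
    exact h3.ne_zero

/-- **(IND) implies that the products of coordinates are in the radical of the ideal of the
maximal minors.** -/
theorem ind_radical {k : Type*} [Field k] {P : Type u} [CommRing P] [Algebra k P] (I : Ideal P)
    {C J : Type*} [Fintype C] [DecidableEq C] [Fintype J] (h : C → J → P) {B : Type*} [Fintype B]
    (v : B → P) 
    (hind : ∀ (Ω : Type u) [Field Ω] [Algebra k Ω] (φ : P →ₐ[k] Ω), (∀ p ∈ I, φ p = 0) →
      (∀ b, φ (v b) ≠ 0) → LinearIndependent Ω fun c j => φ (h c j)) :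
    ∏ b, v b ∈ (I ⊔ Ideal.span {d | ∃ g : C → J, Function.Injective g ∧
      d = (Matrix.of fun a b => h a (g b)).det}).radical := by
  classical
  by_contra hcon
  rw [Ideal.radical_eq_sInf, Submodule.mem_sInf] at hcon
  push Not at hcon
  obtain ⟨p, ⟨hp1, hp2⟩, hp3⟩ := hcon
  have := hp2
  let Ω := FractionRing (P ⧸ p)
  let φ : P →ₐ[k] Ω := (IsScalarTower.toAlgHom k (P ⧸ p) Ω).comp (Ideal.Quotient.mkₐ k p)
  have hφ : ∀ x, φ x = 0 ↔ x ∈ p := by
    intro x
    have h1 : φ x = algebraMap (P ⧸ p) Ω (Ideal.Quotient.mk p x) := rfl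
    rw [h1, FaithfulSMul.algebraMap_eq_zero_iff, Ideal.Quotient.eq_zero_iff_mem]
  have h1 := hind Ω φ (fun q hq => (hφ q).2 (hp1 (Ideal.mem_sup_left hq))) (fun b hb => by
    apply hp3
    exact Ideal.mem_of_dvd p (Finset.dvd_prod_of_mem v (Finset.mem_univ b)) ((hφ _).1 hb))
  obtain ⟨g, hg1, hg2⟩ := exists_minor_ne_zero _ h1
  apply hg2
  have h2 : (Matrix.of fun a b => φ (h a (g b))).det = φ (Matrix.of fun a b => h a (g b)).det := by
    rw [AlgHom.map_det]
    rfl
  rw [h2, hφ]
  exact hp1 (Ideal.mem_sup_right (Ideal.subset_span ⟨g, hg1, rfl⟩))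

end Vale.Agent.P200.S
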