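import Vale.Agent.P200.S.LvDefs

/-! P200, block D: statements of S/Ind.lean (independence at all points gives monomials in the
ideals of minors). -/

namespace Vale.Agent.P200.S

open MvPolynomial Module

universe u

/-- Hypothesis (IND): at every zero of `G`, with a nonzero coordinate in every block, over any field,
the rows are independent. -/
def IND {k : Type u} [Field k] {Z : Type} {B : Type*} (blk : Z → B) (G : Set (MvPolynomial Z k))
    {c N : ℕ} (a : Fin c → Fin N → MvPolynomial Z k) : Prop :=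
  ∀ (Ω : Type u) [Field Ω] [Algebra k Ω] (p : Z → Ω), (∀ g ∈ G, aeval p g = 0) →
    (∀ b, ∃ z, blk z = b ∧ p z ≠ 0) → LinearIndependent Ω fun i j => aeval p (a i j)

/-- a field point with independent rows: some minor does not vanish -/
theorem exists_mnr {k : Type u} [Field k] {Z : Type} {c N : ℕ}
    (a : Fin c → Fin N → MvPolynomial Z k) {Ω : Type u} [Field Ω] [Algebra k Ω] (p : Z → Ω)
    (h : LinearIndependent Ω fun i j => aeval p (a i j)) (r : Fin c) :
    ∃ Δ ∈ mnr a r, aeval p Δ ≠ 0 := by
  sorry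

theorem monomial_mem_of_IND {k : Type u} [Field k] {Z : Type} [Fintype Z] {B : Type*} [Finite B]
    (blk : Z → B) (G : Set (MvPolynomial Z k)) {c N : ℕ} (a : Fin c → Fin N → MvPolynomial Z k)
    (h : IND blk G a) : ∃ q : ℕ, ∀ (r : Fin c) (μ : Z →₀ ℕ),
      (∀ b, q ≤ bdeg (fun z => some (blk z)) μ b) →
        monomial μ (1 : k) ∈ Ideal.span G ⊔ Ideal.span (mnr a r) := by
  sorry

/-- the same with the parameters as further variables -/
theorem monomial_mem_of_IND' {k : Type u} [Field k] {Z : Type} [Fintype Z] {B : Type*} [Finite B]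
    (blk : Z → B) (G : Set (MvPolynomial Z k)) {c N : ℕ} (a : Fin c → Fin N → MvPolynomial Z k)
    (h : IND blk G a) : ∃ q : ℕ, ∀ (r : Fin c) (μ : Z ⊕ Fin N →₀ ℕ),
      (∀ b, q ≤ bdeg (tbl blk N) μ b) →
        monomial μ (1 : k) ∈ Ideal.span (rename Sum.inl '' G) ⊔
          Ideal.span (mnr (fun i j => rename (Sum.inl : Z → Z ⊕ Fin N) (a i j)) r) := by
  sorry

end Vale.Agent.P200.S
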