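import Vale.Agent.P200.S.Defs

/-! P200, block D: exterior algebra over a free module, definitions.

`Finset (Fin N) × ι → P` is the exterior algebra on `e_0, …, e_(N-1)` tensor `ι → P`. -/

namespace Vale.Agent.P200.S

open MvPolynomial Module

section alg
variable {P : Type*} [CommRing P] {N c : ℕ} {ι : Type*}

/-- the sign of `e_j ∧ e_S` -/
def sg (P : Type*) [CommRing P] {N : ℕ} (j : Fin N) (S : Finset (Fin N)) : P :=
  (-1) ^ (S.filter fun i => i < j).card

/-- multiplication by `e_j` -/
def ee (j : Fin N) : (Finset (Fin N) × ι → P) →ₗ[P] (Finset (Fin N) × ι → P) where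
  toFun u x := if j ∈ x.1 then sg P j x.1 * u (x.1.erase j, x.2) else 0
  map_add' u v := by
    funext x
    by_cases h : j ∈ x.1
    · simp only [if_pos h, Pi.add_apply, mul_add]
    · simp only [if_neg h, Pi.add_apply, add_zero]
  map_smul' r u := by
    funext x
    by_cases h : j ∈ x.1
    · simp only [if_pos h, Pi.smul_apply, smul_eq_mul, RingHom.id_apply]
      ring
    · simp only [if_neg h, Pi.smul_apply, smul_zero]

/-- contraction with the dual of `e_j` -/
def ii (j : Fin N) : (Finset (Fin N) × ι → P) →ₗ[P] (Finset (Fin N) × ι → P) where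
  toFun u x := if j ∈ x.1 then 0 else sg P j x.1 * u (insert j x.1, x.2)
  map_add' u v := by
    funext x
    by_cases h : j ∈ x.1
    · simp only [if_pos h, Pi.add_apply, add_zero]
    · simp only [if_neg h, Pi.add_apply, mul_add]
  map_smul' r u := by
    funext x
    by_cases h : j ∈ x.1
    · simp only [if_pos h, Pi.smul_apply, smul_zero]
    · simp only [if_neg h, Pi.smul_apply, smul_eq_mul, RingHom.id_apply]
      ring

theorem ee_apply (j : Fin N) (u : Finset (Fin N) × ι → P) (x : Finset (Fin N) × ι) :
    ee j u x = if j ∈ x.1 then sg P j x.1 * u (x.1.erase j, x.2) else 0 := rfl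

theorem ii_apply (j : Fin N) (u : Finset (Fin N) × ι → P) (x : Finset (Fin N) × ι) :
    ii j u x = if j ∈ x.1 then 0 else sg P j x.1 * u (insert j x.1, x.2) := rfl

/-- multiplication by `∑ a_j e_j` -/
noncomputable def et (a : Fin N → P) : (Finset (Fin N) × ι → P) →ₗ[P] (Finset (Fin N) × ι → P) :=
  ∑ j, a j • ee j

/-- contraction with `∑ T_j e_j^*` -/
noncomputable def dd (T : Fin N → P) : (Finset (Fin N) × ι → P) →ₗ[P] (Finset (Fin N) × ι → P) :=
  ∑ j, T j • ii j

/-- the exterior algebra tensor the submodule `X` -/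
def KX (N : ℕ) (X : Submodule P (ι → P)) : Submodule P (Finset (Fin N) × ι → P) where
  carrier := {u | ∀ S, (fun i => u (S, i)) ∈ X}
  add_mem' ha hb S := X.add_mem (ha S) (hb S)
  zero_mem' _ := X.zero_mem
  smul_mem' r _ ha S := X.smul_mem r (ha S)

/-- the submodule generated by `Y` and the multiples of the first `r` rows of `a` -/
noncomputable def BB (a : Fin c → Fin N → P) (X Y : Submodule P (ι → P)) (r : ℕ) :
    Submodule P (Finset (Fin N) × ι → P) :=
  KX N Y ⊔ ⨆ l : {l : Fin c // (l : ℕ) < r}, (KX N X).map (et (a l))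

end alg

section graded
variable {k : Type*} [Field k] {σ ι M : Type*} [AddCommGroup M]

/-- the weights with values in `M × ZMod 2` -/
def w2 (w : σ → M) (v : σ) : M × ZMod 2 := (w v, 0)

/-- the degrees of the basis vectors, with the parity -/
def sh2 (N : ℕ) (sh : ι → M) (ε : M) (x : Finset (Fin N) × ι) : M × ZMod 2 :=
  (sh x.2 + x.1.card • ε, (x.1.card : ZMod 2))

/-- the superdimension -/
def sdim (F : M × ZMod 2 → ℤ) (m : M) : ℤ := F (m, 0) - F (m, 1)

end graded

end Vale.Agent.P200.S
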