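import Vale.Agent.P200.S.KosDefs

/-! P200, block D: statements of S/KosGr.lean (gradings and Hilbert functions on the exterior
algebra). -/

namespace Vale.Agent.P200.S

open MvPolynomial Module

section graded
variable {k : Type*} [Field k] {σ ι M : Type*} [AddCommGroup M] {w : σ → M} {sh : ι → M}
  {N c : ℕ}

theorem isPos_w2 (hw : IsPos w) : IsPos (w2 w) := by
  sorry

theorem weight_w2 (μ : σ →₀ ℕ) : Finsupp.weight (w2 w) μ = (Finsupp.weight w μ, 0) := by
  sorry

theorem isHMap_et {ε α : M} {a : Fin N → MvPolynomial σ k}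
    (ha : ∀ j, IsWeightedHomogeneous w (a j) α) :
    IsHMap (w2 w) (sh2 N sh ε) (sh2 N sh ε) (α + ε, 1) (et (ι := ι) a) := by
  sorry

theorem isHMap_dd {ε : M} {T : Fin N → MvPolynomial σ k}
    (hT : ∀ j, IsWeightedHomogeneous w (T j) ε) :
    IsHMap (w2 w) (sh2 N sh ε) (sh2 N sh ε) (0, 1) (dd (ι := ι) T) := by
  sorry

theorem isHom_KX {ε : M} {X : Submodule (MvPolynomial σ k) (ι → MvPolynomial σ k)}
    (hX : IsHom w sh X) : IsHom (w2 w) (sh2 N sh ε) (KX N X) := by
  sorry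

theorem isHom_BB [Finite ι] {ε : M} {X Y : Submodule (MvPolynomial σ k) (ι → MvPolynomial σ k)}
    (hX : IsHom w sh X) (hY : IsHom w sh Y) {α : Fin c → M} {a : Fin c → Fin N → MvPolynomial σ k}
    (ha : ∀ l j, IsWeightedHomogeneous w (a l j) (α l)) (r : ℕ) :
    IsHom (w2 w) (sh2 N sh ε) (BB a X Y r) := by
  sorry

/-- the superdimension of the exterior algebra -/
theorem sdim_KX [Finite σ] [Fintype ι] (hw : IsPos w) {ε : M}
    {X : Submodule (MvPolynomial σ k) (ι → MvPolynomial σ k)} (hX : IsHom w sh X) :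
    sdim (hf (w2 w) (sh2 N sh ε) (KX N X)) = act ((1 - gL ε) ^ N) (hf w sh X) := by
  sorry

/-- superdimensions of subquotients of the exterior algebra are differences of Hilbert functions
of graded modules -/
theorem sdim_mem_hil [Fintype ι] {ε : M}
    {Z D : Submodule (MvPolynomial σ k) (Finset (Fin N) × ι → MvPolynomial σ k)}
    (hZ : IsHom (w2 w) (sh2 N sh ε) Z) (hD : IsHom (w2 w) (sh2 N sh ε) D) (hle : D ≤ Z)
    {I : Ideal (MvPolynomial σ k)} (hI : ∀ g ∈ I, ∀ x ∈ Z, g • x ∈ D) :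
    sdim (fun m => hf (w2 w) (sh2 N sh ε) Z m - hf (w2 w) (sh2 N sh ε) D m) ∈ Hil w I := by
  sorry

end graded

end Vale.Agent.P200.S
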