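import Vale.Agent.P200.S.KosDefs

/-! P200, block D: statements of S/Kos.lean (exterior algebra, pure algebra). -/

namespace Vale.Agent.P200.S

section alg
variable {P : Type*} [CommRing P] {N c : ℕ} {ι : Type*}

theorem et_et (a b : Fin N → P) (u : Finset (Fin N) × ι → P) :
    et a (et b u) = -et b (et a u) := by
  sorry

theorem et_self (a : Fin N → P) (u : Finset (Fin N) × ι → P) : et a (et a u) = 0 := by
  sorry

theorem dd_self (T : Fin N → P) (u : Finset (Fin N) × ι → P) : dd T (dd T u) = 0 := by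
  sorry

theorem dd_et (T a : Fin N → P) (u : Finset (Fin N) × ι → P) :
    dd T (et a u) + et a (dd T u) = (∑ j, T j * a j) • u := by
  sorry

theorem et_mem_KX {X : Submodule P (ι → P)} {u : Finset (Fin N) × ι → P} (hu : u ∈ KX N X)
    (a : Fin N → P) : et a u ∈ KX N X := by
  sorry

theorem dd_mem_KX {X : Submodule P (ι → P)} {u : Finset (Fin N) × ι → P} (hu : u ∈ KX N X)
    (T : Fin N → P) : dd T u ∈ KX N X := by
  sorry

theorem KX_mono {X Y : Submodule P (ι → P)} (h : Y ≤ X) : KX N Y ≤ KX N X := by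
  sorry

theorem KX_smul {X Y : Submodule P (ι → P)} {g : P} (h : ∀ x ∈ X, g • x ∈ Y)
    {u : Finset (Fin N) × ι → P} (hu : u ∈ KX N X) : g • u ∈ KX N Y := by
  sorry

variable {a : Fin c → Fin N → P} {X Y : Submodule P (ι → P)}

theorem KX_le_BB (r : ℕ) : KX N Y ≤ BB a X Y r := by
  sorry

theorem BB_le (h : Y ≤ X) (r : ℕ) : BB a X Y r ≤ KX N X := by
  sorry

theorem BB_zero : BB a X Y 0 = KX N Y := by
  sorry

theorem BB_succ (r : Fin c) : BB a X Y (r + 1) = (KX N X).map (et (a r)) ⊔ BB a X Y r := by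
  sorry

theorem et_mem_BB (b : Fin N → P) {r : ℕ} {u : Finset (Fin N) × ι → P} (hu : u ∈ BB a X Y r) :
    et b u ∈ BB a X Y r := by
  sorry

theorem dd_mem_BB {T : Fin N → P} (hF : ∀ l, ∀ x ∈ X, (∑ j, T j * a l j) • x ∈ Y) {r : ℕ}
    {u : Finset (Fin N) × ι → P} (hu : u ∈ BB a X Y r) : dd T u ∈ BB a X Y r := by
  sorry

/-- the kernel of `et (a r)` on `KX X / BB r` contains `BB (r+1)` -/
theorem et_mem_BB_of_mem (h : Y ≤ X) (r : Fin c) {u : Finset (Fin N) × ι → P}
    (hu : u ∈ BB a X Y (r + 1)) : et (a r) u ∈ BB a X Y r := by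
  sorry

/-- it is `BB (r+1)` up to the elements of `mnr a r` -/
theorem mnr_smul_mem (h : Y ≤ X) (r : Fin c) {Δ : P} (hΔ : Δ ∈ mnr a r)
    {u : Finset (Fin N) × ι → P} (hu : u ∈ KX N X) (hr : et (a r) u ∈ BB a X Y r) :
    Δ • u ∈ BB a X Y (r + 1) := by
  sorry

end alg

end Vale.Agent.P200.S
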