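import Vale.Agent.P200.S.LvDefs

/-! P200, block D: statement of S/Lat.lean (lattice over the ring of parameters, leading forms;
helper536). -/

namespace Vale.Agent.P200.S

open MvPolynomial Module

universe u

theorem exists_lead {k : Type u} [Field k] {Z B : Type*} [Fintype Z] [Finite B] {blk : Z → B}
    {c N e : ℕ} (he : 0 < e) {C : Fin c → Z} (hCinj : Function.Injective C)
    {G : Set (MvPolynomial Z k)}
    (hG : ∀ g ∈ G, (∃ m, IsWeightedHomogeneous (bw blk) g m) ∧ ∀ l, C l ∉ g.vars)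
    {h : Fin c → Fin N → MvPolynomial Z k}
    (hh : ∀ l j, IsWeightedHomogeneous (bw blk) (h l j) (e • bw blk (C l)) ∧
      ∀ l', C l' ∉ (h l j).vars)
    {s : ℕ} {L : Submodule (MvPolynomial Z (FractionRing (MvPolynomial (Fin N) k)))
      (Fin s → MvPolynomial Z (FractionRing (MvPolynomial (Fin N) k)))}
    (hL : IsHom (bw blk) 0 L) (hLG : Kills (toK k Z N '' G) L)
    (hLr : Kills (Set.range (krel C e h)) L) :
    ∃ L' : Submodule (MvPolynomial (Z ⊕ Fin N) k) (Fin s → MvPolynomial (Z ⊕ Fin N) k),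
      IsHom (tw blk C e N) 0 L' ∧ (∀ g ∈ tI C e h G, ∀ u, g • u ∈ L') ∧
      ∀ (n : B → ℤ) (τ1 : ℤ),
        (∀ τ, τ1 < τ → act ((1 - gL ((0, (e : ℤ)) : (B → ℤ) × ℤ)) ^ N)
          (hq (tw blk C e N) L') (n, τ) = 0) →
        hq (bw blk) L n = ∑ τ ∈ Finset.Icc 0 τ1,
          act ((1 - gL ((0, (e : ℤ)) : (B → ℤ) × ℤ)) ^ N) (hq (tw blk C e N) L') (n, τ) := by
  sorry

end Vale.Agent.P200.S
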