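import Vale.Agent.P200.S.IndSpec

/-! P200, block D: the level lemma (statement of S/Level.lean; assembled from S/Lat, S/Step, S/Dev,
S/Gen, S/Canc, S/Pair, S/Ind by helper880). -/

namespace Vale.Agent.P200.S

open MvPolynomial Module

universe u

/-- **Level lemma.** -/
theorem level {k : Type u} [Field k] {Z : Type} {B : Type*} [Fintype Z] [Finite B] {blk : Z → B}
    {c N e : ℕ} (he : 0 < e) {C : Fin c → Z} (hCinj : Function.Injective C)
    {G : Set (MvPolynomial Z k)}
    (hG : ∀ g ∈ G, (∃ m, IsWeightedHomogeneous (bw blk) g m) ∧ ∀ l, C l ∉ g.vars)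
    {h : Fin c → Fin N → MvPolynomial Z k}
    (hh : ∀ l j, IsWeightedHomogeneous (bw blk) (h l j) (e • bw blk (C l)) ∧
      ∀ l', C l' ∉ (h l j).vars)
    (hind : IND blk (G ∪ Set.range fun l => X (C l)) h)
    {Λ : AddSubgroup ((B → ℤ) → ℤ)} (hΛ : ∀ δ, ∀ F ∈ Λ, sft δ F ∈ Λ)
    (hint : IntG blk (G ∪ Set.range fun l => X (C l)) Λ) :
    IntG blk (toK k Z N '' G ∪ Set.range (krel C e h))
      (Λ.map (act (∏ l, gPhi e (bw blk (C l)))).toAddMonoidHom) := by
  sorry

end Vale.Agent.P200.S
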