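import Vale.Agent.P200.S.Defs

/-! P200, block D: definitions for the level lemma. -/

namespace Vale.Agent.P200.S

open MvPolynomial Module

universe u

section
variable {Z B : Type*}

open Classical in
/-- the multidegree of a variable -/
noncomputable def bw (blk : Z → B) (z : Z) : B → ℤ := Pi.single (blk z) 1

open Classical in
/-- the weights over the field of parameters: the variables in the range of `C` have `T`-degree
one, the others zero; the parameters have `T`-degree `e` -/
noncomputable def tw (blk : Z → B) {c : ℕ} (C : Fin c → Z) (e N : ℕ) :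
    Z ⊕ Fin N → (B → ℤ) × ℤ
  | Sum.inl z => (bw blk z, if z ∈ Set.range C then 1 else 0)
  | Sum.inr _ => (0, e)

/-- the blocks of the variables -/
def tbl (blk : Z → B) (N : ℕ) : Z ⊕ Fin N → Option B
  | Sum.inl z => some (blk z)
  | Sum.inr _ => none

variable {k : Type u} [Field k] {c N : ℕ}

/-- the relation `w_l^e - ∑ Y_j h_lj`, with the parameters as variables -/
noncomputable def trel (C : Fin c → Z) (e : ℕ) (h : Fin c → Fin N → MvPolynomial Z k) (l : Fin c) :
    MvPolynomial (Z ⊕ Fin N) k :=
  X (Sum.inl (C l)) ^ e - ∑ j, X (Sum.inr j) * rename Sum.inl (h l j)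

/-- the ideal generated by the old relations and the new relations -/
noncomputable def tI (C : Fin c → Z) (e : ℕ) (h : Fin c → Fin N → MvPolynomial Z k)
    (G : Set (MvPolynomial Z k)) : Ideal (MvPolynomial (Z ⊕ Fin N) k) :=
  Ideal.span (rename Sum.inl '' G) ⊔ Ideal.span (Set.range (trel C e h))

/-- extension of scalars to the field of rational functions in the parameters -/
noncomputable def toK (k : Type u) [Field k] (Z : Type*) (N : ℕ) :
    MvPolynomial Z k →+* MvPolynomial Z (FractionRing (MvPolynomial (Fin N) k)) :=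
  MvPolynomial.map (algebraMap k (FractionRing (MvPolynomial (Fin N) k)))

/-- the relation `w_l^e - ∑ Y_j h_lj` over the field of rational functions -/
noncomputable def krel (C : Fin c → Z) (e : ℕ) (h : Fin c → Fin N → MvPolynomial Z k) (l : Fin c) :
    MvPolynomial Z (FractionRing (MvPolynomial (Fin N) k)) :=
  X (C l) ^ e - ∑ j, MvPolynomial.C (algebraMap (MvPolynomial (Fin N) k)
    (FractionRing (MvPolynomial (Fin N) k)) (X j)) * toK k Z N (h l j)

/-- the Hilbert function of the graded module `P^s / L` -/
noncomputable def hq {k : Type*} [Field k] {σ M : Type*} [AddCommGroup M] (w : σ → M) {s : ℕ}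
    (L : Submodule (MvPolynomial σ k) (Fin s → MvPolynomial σ k)) (m : M) : ℤ :=
  hf w 0 (⊤ : Submodule (MvPolynomial σ k) (Fin s → MvPolynomial σ k)) m - hf w 0 L m

/-- `G` kills the graded module `(k[Z])^s / N` -/
def Kills {R : Type*} [CommRing R] {s : ℕ} (G : Set (MvPolynomial Z R))
    (N : Submodule (MvPolynomial Z R) (Fin s → MvPolynomial Z R)) : Prop :=
  ∀ g ∈ G, ∀ u, g • u ∈ N

/-- all graded modules generated in degree `0` and killed by `G` have Hilbert functions in `Λ`,
eventually -/
def IntG (blk : Z → B) (G : Set (MvPolynomial Z k)) (Λ : AddSubgroup ((B → ℤ) → ℤ)) : Prop :=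
  ∀ (s : ℕ) (N : Submodule (MvPolynomial Z k) (Fin s → MvPolynomial Z k)),
    IsHom (bw blk) 0 N → Kills G N →
      ∃ f ∈ Λ, ∃ n0 : ℤ, ∀ n, (∀ b, n0 ≤ n b) → hq (bw blk) N n = f n

end

end Vale.Agent.P200.S
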