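import Vale.Agent.P200.S.LvDefs

/-! P200, block D: statement of S/Pair.lean (integrality for subquotients, uses S/Gen). -/

namespace Vale.Agent.P200.S

open MvPolynomial Module

universe u

/-- The `T`-coefficients of the Hilbert functions of the graded modules over `k[Z, Y]` killed by
`Y`, `C` and `G` are eventually in `Λ`. -/
theorem coeff_mem_of_intG {k : Type u} [Field k] {Z B : Type*} [Fintype Z] [Finite B] {blk : Z → B}
    {c : ℕ} {C : Fin c → Z} {e N : ℕ} (he : 0 < e) {G : Set (MvPolynomial Z k)}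
    {Λ : AddSubgroup ((B → ℤ) → ℤ)} (hΛ : ∀ δ, ∀ F ∈ Λ, sft δ F ∈ Λ)
    (hint : IntG blk (G ∪ Set.range fun l => X (C l)) Λ)
    {I : Ideal (MvPolynomial (Z ⊕ Fin N) k)} (hY : ∀ j, X (Sum.inr j) ∈ I)
    (hC : ∀ l, X (Sum.inl (C l)) ∈ I) (hG : ∀ g ∈ G, rename Sum.inl g ∈ I)
    {F : (B → ℤ) × ℤ → ℤ} (hF : F ∈ Hil (tw blk C e N) I) (τ : ℤ) :
    ∃ f ∈ Λ, ∃ n0 : ℤ, ∀ n : B → ℤ, (∀ b, n0 ≤ n b) → F (n, τ) = f n := by
  sorry

end Vale.Agent.P200.S
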