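import Vale.Agent.P200.S.KosDefs

/-! P200, block D: statement of S/Step.lean (the Koszul step; uses S/Kos, S/KosGr, S/Gen, S/Dev). -/

namespace Vale.Agent.P200.S

open MvPolynomial Module

theorem koszul_step {k : Type*} [Field k] {σ B M : Type*} [AddCommGroup M] [Fintype σ]
    [Finite B] {w : σ → M} (hw : IsPos w) {π : M →+ (B → ℤ)} {bl : σ → Option B}
    (hbl : IsBl w π bl) {N c : ℕ} {ε : M} {T : Fin N → MvPolynomial σ k}
    (hT : ∀ j, IsWeightedHomogeneous w (T j) ε) {α : Fin c → M}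
    {a : Fin c → Fin N → MvPolynomial σ k} (ha : ∀ l j, IsWeightedHomogeneous w (a l j) (α l))
    {I : Ideal (MvPolynomial σ k)} (hF : ∀ l, ∑ j, T j * a l j ∈ I) {q : ℕ}
    (hq : ∀ (r : Fin c) (μ : σ →₀ ℕ), (∀ b, q ≤ bdeg bl μ b) →
      (monomial μ (1 : k)) ∈ I ⊔ Ideal.span (mnr a r)) {F : M → ℤ} (hFI : F ∈ Hil w I) :
    ∃ A ∈ Hil w (I ⊔ Ideal.span (Set.range T)),
      EvU π (act ((1 - gL ε) ^ N) F) (act (∏ l, (1 - gL (α l + ε))) A) := by
  sorry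

end Vale.Agent.P200.S
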